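import Vale.Agent.P127.Main

namespace Vale.Agent.Results.P127.A_sticky4

/-- upper box (Minkowski) dimension -/
noncomputable def boxDim {X : Type} [PseudoMetricSpace X] (A : Set X) : ENNReal :=
  ⨅ (s : NNReal) (_ : ∃ C : ℝ, ∀ r : ℝ, 0 < r → r ≤ 1 → ∃ F : Finset X,
    (F.card : ℝ) ≤ C * r ^ (-(s : ℝ)) ∧ A ⊆ ⋃ p ∈ F, Metric.closedBall p r), (s : ENNReal)

/-- packing dimension -/
noncomputable def packDim {X : Type} [PseudoMetricSpace X] (A : Set X) : ENNReal :=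
  ⨅ (B : ℕ → Set X) (_ : A ⊆ ⋃ n, B n), ⨆ n, boxDim (B n)

/-- the affine line `a + ℝ e` (`e` a unit vector): orthogonal projection onto its direction and
its point closest to the origin -/
noncomputable def affLine (a e : EuclideanSpace ℝ (Fin 4)) :
    (EuclideanSpace ℝ (Fin 4) →L[ℝ] EuclideanSpace ℝ (Fin 4)) × EuclideanSpace ℝ (Fin 4) :=
  ((innerSL ℝ e).smulRight e, a - (inner ℝ e a) • e)

theorem result (K : Set (EuclideanSpace ℝ (Fin 4)))
    (a : Metric.sphere (0 : EuclideanSpace ℝ (Fin 4)) 1 → EuclideanSpace ℝ (Fin 4))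
    (hK : ∀ e, ∀ t ∈ Set.Icc (0 : ℝ) 1, a e + t • (e : EuclideanSpace ℝ (Fin 4)) ∈ K)
    (hs : packDim (Set.range fun e => affLine (a e) (e : EuclideanSpace ℝ (Fin 4))) ≤ 3) :
    dimH K = 4 :=
  Vale.Agent.P127.final Vale.Agent.P127.pk_three K a hK hs

end Vale.Agent.Results.P127.A_sticky4
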